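import Crest.Prelude.Def_SPSPS

/-!
# S0505 squad, leaf A (Reindex)

Every depth-five circuit with finite index types can be re-indexed by `Fin` types, keeping its
output and its syntactic homogeneity (and, trivially, its size, which only depends on the
cardinalities of the index types).
-/

set_option autoImplicit false
set_option linter.unusedSectionVars false
set_option linter.unusedVariables false

namespace Crest.Agent.Helper41.S0505

open Crest.ArithCircuit MvPolynomial

section
variable {K ι L B P S R L' B' P' S' R' : Type*}

/-- Transport of a circuit along equivalences of its five index types. -/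
def reindex (C : SPSPS K ι L B P S R) (eL : L ≃ L') (eB : B ≃ B') (eP : P ≃ P') (eS : S ≃ S')
    (eR : R ≃ R') : SPSPS K ι L' B' P' S' R' where
  leaf l := C.leaf (eL.symm l)
  inB b := (C.inB (eB.symm b)).map eL.toEmbedding
  coefB b l := C.coefB (eB.symm b) (eL.symm l)
  inP p := (C.inP (eP.symm p)).map eB
  inS s := (C.inS (eS.symm s)).map eP.toEmbedding
  coefS s p := C.coefS (eS.symm s) (eP.symm p)
  inR r := (C.inR (eR.symm r)).map eS
  inOut := C.inOut.map eR.toEmbedding
  coefOut r := C.coefOut (eR.symm r)

variable [CommSemiring K] (C : SPSPS K ι L B P S R) (eL : L ≃ L') (eB : B ≃ B') (eP : P ≃ P')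
  (eS : S ≃ S') (eR : R ≃ R')

theorem reindex_leafVal (l : L') :
    (reindex C eL eB eP eS eR).leafVal l = C.leafVal (eL.symm l) := rfl

theorem reindex_valB (b : B') :
    (reindex C eL eB eP eS eR).valB b = C.valB (eB.symm b) := by
  unfold SPSPS.valB
  simp only [reindex_leafVal]
  simp [reindex, Finset.sum_map]

theorem reindex_valP (p : P') :
    (reindex C eL eB eP eS eR).valP p = C.valP (eP.symm p) := by
  unfold SPSPS.valP
  have h : (reindex C eL eB eP eS eR).inP p = (C.inP (eP.symm p)).map eB := rfl
  rw [h, Multiset.map_map]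
  congr 1
  refine Multiset.map_congr rfl fun b _ => ?_
  simp [reindex_valB]

theorem reindex_valS (s : S') :
    (reindex C eL eB eP eS eR).valS s = C.valS (eS.symm s) := by
  unfold SPSPS.valS
  simp only [reindex_valP]
  simp [reindex, Finset.sum_map]

theorem reindex_valR (r : R') :
    (reindex C eL eB eP eS eR).valR r = C.valR (eR.symm r) := by
  unfold SPSPS.valR
  have h : (reindex C eL eB eP eS eR).inR r = (C.inR (eR.symm r)).map eS := rfl
  rw [h, Multiset.map_map]
  congr 1
  refine Multiset.map_congr rfl fun s _ => ?_
  simp [reindex_valS]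

theorem reindex_output : (reindex C eL eB eP eS eR).output = C.output := by
  unfold SPSPS.output
  simp only [reindex_valR]
  simp [reindex, Finset.sum_map]

theorem reindex_leafDeg (l : L') :
    (reindex C eL eB eP eS eR).leafDeg l = C.leafDeg (eL.symm l) := rfl

theorem reindex_degB (b : B') :
    (reindex C eL eB eP eS eR).degB b = C.degB (eB.symm b) := by
  unfold SPSPS.degB
  have h : (reindex C eL eB eP eS eR).inB b = (C.inB (eB.symm b)).map eL.toEmbedding := rfl
  rw [h, Finset.sup_map]
  refine Finset.sup_congr rfl fun l _ => ?_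
  simp [reindex_leafDeg]

theorem reindex_degP (p : P') :
    (reindex C eL eB eP eS eR).degP p = C.degP (eP.symm p) := by
  unfold SPSPS.degP
  have h : (reindex C eL eB eP eS eR).inP p = (C.inP (eP.symm p)).map eB := rfl
  rw [h, Multiset.map_map]
  congr 1
  refine Multiset.map_congr rfl fun b _ => ?_
  simp [reindex_degB]

theorem reindex_degS (s : S') :
    (reindex C eL eB eP eS eR).degS s = C.degS (eS.symm s) := by
  unfold SPSPS.degS
  have h : (reindex C eL eB eP eS eR).inS s = (C.inS (eS.symm s)).map eP.toEmbedding := rfl
  rw [h, Finset.sup_map]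
  refine Finset.sup_congr rfl fun p _ => ?_
  simp [reindex_degP]

theorem reindex_degR (r : R') :
    (reindex C eL eB eP eS eR).degR r = C.degR (eR.symm r) := by
  unfold SPSPS.degR
  have h : (reindex C eL eB eP eS eR).inR r = (C.inR (eR.symm r)).map eS := rfl
  rw [h, Multiset.map_map]
  congr 1
  refine Multiset.map_congr rfl fun s _ => ?_
  simp [reindex_degS]

theorem reindex_degOut : (reindex C eL eB eP eS eR).degOut = C.degOut := by
  unfold SPSPS.degOut
  have h : (reindex C eL eB eP eS eR).inOut = C.inOut.map eR.toEmbedding := rfl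
  rw [h, Finset.sup_map]
  refine Finset.sup_congr rfl fun r _ => ?_
  simp [reindex_degR]

theorem reindex_isHomogeneous (h : C.IsHomogeneous) :
    (reindex C eL eB eP eS eR).IsHomogeneous := by
  obtain ⟨h1, h2, h3⟩ := h
  refine ⟨?_, ?_, ?_⟩
  · intro b l hl
    have hl' : l ∈ (C.inB (eB.symm b)).map eL.toEmbedding := hl
    rw [Finset.mem_map] at hl'
    obtain ⟨l0, hl0, rfl⟩ := hl'
    rw [reindex_leafDeg, reindex_degB]
    simpa using h1 (eB.symm b) l0 hl0
  · intro s p hp
    have hp' : p ∈ (C.inS (eS.symm s)).map eP.toEmbedding := hp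
    rw [Finset.mem_map] at hp'
    obtain ⟨p0, hp0, rfl⟩ := hp'
    rw [reindex_degP, reindex_degS]
    simpa using h2 (eS.symm s) p0 hp0
  · intro r hr
    have hr' : r ∈ C.inOut.map eR.toEmbedding := hr
    rw [Finset.mem_map] at hr'
    obtain ⟨r0, hr0, rfl⟩ := hr'
    rw [reindex_degR, reindex_degOut]
    simpa using h3 r0 hr0

end

/-- **Leaf A.** Every finite circuit can be re-indexed by `Fin` types. -/
theorem exists_fin_reindex {K ι L B P S R : Type*} [CommSemiring K]
    [Fintype L] [Fintype B] [Fintype P] [Fintype S] [Fintype R] (C : SPSPS K ι L B P S R) :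
    ∃ C' : SPSPS K ι (Fin (Fintype.card L)) (Fin (Fintype.card B)) (Fin (Fintype.card P))
        (Fin (Fintype.card S)) (Fin (Fintype.card R)),
      (C.IsHomogeneous → C'.IsHomogeneous) ∧ C'.output = C.output :=
  ⟨reindex C (Fintype.equivFin L) (Fintype.equivFin B) (Fintype.equivFin P) (Fintype.equivFin S)
      (Fintype.equivFin R),
    fun h => reindex_isHomogeneous C _ _ _ _ _ h, reindex_output C _ _ _ _ _⟩

/-- The size of a circuit indexed by `Fin` types of the cardinalities of the original index
types is the size of the original circuit. -/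
theorem size_fin_reindex {K ι L B P S R : Type*}
    [Fintype L] [Fintype B] [Fintype P] [Fintype S] [Fintype R] (C : SPSPS K ι L B P S R)
    (C' : SPSPS K ι (Fin (Fintype.card L)) (Fin (Fintype.card B)) (Fin (Fintype.card P))
        (Fin (Fintype.card S)) (Fin (Fintype.card R))) : C'.size = C.size := by
  simp [SPSPS.size]

end Crest.Agent.Helper41.S0505
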